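import Vale.Agent.P235.K5.H707.Tricho

/-!
# P235, line XC, row [X1]: the cross lemma
-/

set_option autoImplicit false

namespace Vale.Agent.P235.XC.H231

open Vale.Agent.P235.K5.H707

variable {V : Type*} {G : SimpleGraph V}

/-- `A` and `B` are joined by an edge -/
def Tc (G : SimpleGraph V) (A B : Set V) : Prop := ∃ u ∈ A, ∃ v ∈ B, G.Adj u v

theorem Tc.symm {A B : Set V} (h : Tc G A B) : Tc G B A := by
  obtain ⟨u, hu, v, hv, e⟩ := h
  exact ⟨v, hv, u, hu, e.symm⟩

theorem Tc.mono {A B A' B' : Set V} (h : Tc G A B) (hA : A ⊆ A') (hB : B ⊆ B') : Tc G A' B' := by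
  obtain ⟨u, hu, v, hv, e⟩ := h
  exact ⟨u, hA hu, v, hB hv, e⟩

theorem cn_union {A B : Set V} (hA : Cn G A) (hB : Cn G B) (h : Tc G A B) : Cn G (A ∪ B) := by
  obtain ⟨u, hu, v, hv, e⟩ := h
  exact hA.union hB hu hv e

/-- three connected sets `N i` with root sets `rt i`, two connected sets `M j`, all off `B`,
`N i` joined to `M j` -/
structure Cfg (G : SimpleGraph V) (B : Set V) (rt N : Fin 3 → Set V) (M : Fin 2 → Set V) :
    Prop where
  cN : ∀ i, Cn G (N i)
  cM : ∀ j, Cn G (M j)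
  bN : ∀ i, Disjoint (N i) B
  bM : ∀ j, Disjoint (M j) B
  dN : ∀ i i', i ≠ i' → Disjoint (N i) (N i')
  dM : ∀ j j', j ≠ j' → Disjoint (M j) (M j')
  dNM : ∀ i j, Disjoint (N i) (M j)
  adj : ∀ i j, Tc G (N i) (M j)
  root : ∀ i, rt i ⊆ N i

theorem two (j j' b : Fin 2) (h : j ≠ j') (hb : b ≠ j) : b = j' := by
  revert h hb; revert j j' b; decide

/-- `K ⊆ N i` goes to `M j` -/
theorem Cfg.move {B : Set V} {rt N : Fin 3 → Set V} {M : Fin 2 → Set V} (hC : Cfg G B rt N M)
    {i : Fin 3} {j j' : Fin 2} (hj : j ≠ j') {K : Set V} (hK : K ⊆ N i) (cK : Cn G K)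
    (cR : Cn G (N i \ K)) (hr : ∀ r ∈ rt i, r ∉ K) (h1 : Tc G K (M j))
    (h2 : Tc G (N i \ K) (M j')) :
    Cfg G B rt (Function.update N i (N i \ K)) (Function.update M j (M j ∪ K)) := by
  have hKR : Tc G (N i \ K) K := by
    obtain ⟨a, ha, b, hb, e⟩ := (hC.cN i).2 K hK cK.1 (by
      intro h
      obtain ⟨r, hr⟩ := cR.1
      rw [← h] at hr
      exact hr.2 hr.1)
    exact ⟨b, hb, a, ha, e.symm⟩
  have sN : ∀ a, Function.update N i (N i \ K) a ⊆ N a := by
    intro a
    by_cases h : a = i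
    · subst h; rw [Function.update_self]; exact Set.sdiff_subset
    · rw [Function.update_of_ne h]
  refine ⟨?_, ?_, ?_, ?_, ?_, ?_, ?_, ?_, ?_⟩
  · intro a
    by_cases h : a = i
    · subst h; rw [Function.update_self]; exact cR
    · rw [Function.update_of_ne h]; exact hC.cN a
  · intro b
    by_cases h : b = j
    · subst h; rw [Function.update_self]; exact cn_union (hC.cM b) cK h1.symm
    · rw [Function.update_of_ne h]; exact hC.cM b
  · intro a
    exact (hC.bN a).mono_left (sN a)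
  · intro b
    by_cases h : b = j
    · subst h; rw [Function.update_self]
      exact Disjoint.union_left (hC.bM b) ((hC.bN i).mono_left hK)
    · rw [Function.update_of_ne h]; exact hC.bM b
  · intro a b hab
    exact (hC.dN a b hab).mono (sN a) (sN b)
  · intro a b hab
    by_cases ha : a = j
    · subst ha
      rw [Function.update_self, Function.update_of_ne hab.symm]
      exact Disjoint.union_left (hC.dM a b hab) ((hC.dNM i b).mono_left hK)
    · rw [Function.update_of_ne ha]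
      by_cases hb : b = j
      · subst hb
        rw [Function.update_self]
        exact Disjoint.union_right (hC.dM a b hab) (((hC.dNM i a).mono_left hK).symm)
      · rw [Function.update_of_ne hb]; exact hC.dM a b hab
  · intro a b
    by_cases hb : b = j
    · subst hb
      rw [Function.update_self]
      refine Disjoint.union_right ((hC.dNM a b).mono_left (sN a)) ?_
      by_cases h : a = i
      · subst h; rw [Function.update_self]; exact Set.disjoint_sdiff_left
      · exact (hC.dN a i h).mono (sN a) hK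
    · rw [Function.update_of_ne hb]
      exact (hC.dNM a b).mono_left (sN a)
  · intro a b
    by_cases ha : a = i
    · subst ha
      rw [Function.update_self]
      by_cases hb : b = j
      · subst hb
        rw [Function.update_self]
        exact hKR.mono subset_rfl Set.subset_union_right
      · rw [Function.update_of_ne hb, two j j' b hj hb]
        exact h2
    · rw [Function.update_of_ne ha]
      by_cases hb : b = j
      · subst hb
        rw [Function.update_self]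
        exact (hC.adj a b).mono subset_rfl Set.subset_union_left
      · rw [Function.update_of_ne hb]
        exact hC.adj a b
  · intro a r hr'
    by_cases h : a = i
    · subst h; rw [Function.update_self]; exact ⟨hC.root a hr', hr r hr'⟩
    · rw [Function.update_of_ne h]; exact hC.root a hr'

/-- a vertex off everything goes to `M j` -/
theorem Cfg.grow {B : Set V} {rt N : Fin 3 → Set V} {M : Fin 2 → Set V} (hC : Cfg G B rt N M)
    {j : Fin 2} {w : V} (hB : w ∉ B) (hN : ∀ i, w ∉ N i) (hM : ∀ j, w ∉ M j)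
    (h1 : Tc G (M j) {w}) : Cfg G B rt N (Function.update M j (M j ∪ {w})) := by
  refine ⟨hC.cN, ?_, hC.bN, ?_, hC.dN, ?_, ?_, ?_, hC.root⟩
  · intro b
    by_cases h : b = j
    · subst h; rw [Function.update_self]; exact cn_union (hC.cM b) (Cn.singleton w) h1
    · rw [Function.update_of_ne h]; exact hC.cM b
  · intro b
    by_cases h : b = j
    · subst h; rw [Function.update_self]
      exact Disjoint.union_left (hC.bM b) (Set.disjoint_singleton_left.2 hB)
    · rw [Function.update_of_ne h]; exact hC.bM b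
  · intro a b hab
    by_cases ha : a = j
    · subst ha
      rw [Function.update_self, Function.update_of_ne hab.symm]
      exact Disjoint.union_left (hC.dM a b hab) (Set.disjoint_singleton_left.2 (hM b))
    · rw [Function.update_of_ne ha]
      by_cases hb : b = j
      · subst hb
        rw [Function.update_self]
        exact Disjoint.union_right (hC.dM a b hab) (Set.disjoint_singleton_right.2 (hM a))
      · rw [Function.update_of_ne hb]; exact hC.dM a b hab
  · intro a b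
    by_cases hb : b = j
    · subst hb
      rw [Function.update_self]
      exact Disjoint.union_right (hC.dNM a b) (Set.disjoint_singleton_right.2 (hN a))
    · rw [Function.update_of_ne hb]; exact hC.dNM a b
  · intro a b
    by_cases hb : b = j
    · subst hb
      rw [Function.update_self]
      exact (hC.adj a b).mono subset_rfl Set.subset_union_left
    · rw [Function.update_of_ne hb]
      exact hC.adj a b

/-- labels: `0` = a root, `j + 1` = adjacent to `M j` -/
def lb (G : SimpleGraph V) (R : Set V) (M : Fin 2 → Set V) : Fin 3 → V → Prop :=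
  Fin.cases (fun v => v ∈ R) fun j v => ∃ u ∈ M j, G.Adj v u

theorem lb_succ {R : Set V} {M : Fin 2 → Set V} (j : Fin 2) (v : V) :
    lb G R M j.succ v ↔ ∃ u ∈ M j, G.Adj v u := Iff.rfl

theorem lb_zero {R : Set V} {M : Fin 2 → Set V} (v : V) : lb G R M 0 v ↔ v ∈ R := Iff.rfl

theorem heavy_touch {R : Set V} {M : Fin 2 → Set V} {P : Set V} (h : Heavy (lb G R M) P) :
    ∃ j, Tc G P (M j) := by
  obtain ⟨a, b, hab, ⟨v, hv, h1⟩, ⟨w, hw, h2⟩⟩ := h
  rcases Fin.eq_zero_or_eq_succ a with rfl | ⟨a', rfl⟩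
  · rcases Fin.eq_zero_or_eq_succ b with rfl | ⟨b', rfl⟩
    · exact absurd rfl hab
    · obtain ⟨u, hu, e⟩ := h2
      exact ⟨b', w, hw, u, hu, e⟩
  · obtain ⟨u, hu, e⟩ := h1
    exact ⟨a', v, hv, u, hu, e⟩

theorem heavy_noroot {R : Set V} {M : Fin 2 → Set V} {P : Set V} (h : Heavy (lb G R M) P)
    (hR : ∀ r ∈ R, r ∉ P) (j : Fin 2) : Tc G P (M j) := by
  obtain ⟨a, b, hab, ⟨v, hv, h1⟩, ⟨w, hw, h2⟩⟩ := h
  rcases Fin.eq_zero_or_eq_succ a with rfl | ⟨a', rfl⟩
  · exact absurd hv (hR v h1)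
  rcases Fin.eq_zero_or_eq_succ b with rfl | ⟨b', rfl⟩
  · exact absurd hw (hR w h2)
  by_cases hj : j = a'
  · subst hj
    obtain ⟨u, hu, e⟩ := h1
    exact ⟨v, hv, u, hu, e⟩
  · have : j = b' := two a' b' j (fun h => hab (h ▸ rfl)) hj
    subst this
    obtain ⟨u, hu, e⟩ := h2
    exact ⟨w, hw, u, hu, e⟩

/-- one index: a root cut, or a hub, in a maximal configuration -/
theorem Cfg.hub [Finite V] {B : Set V} {rt N : Fin 3 → Set V} {M : Fin 2 → Set V}
    (hC : Cfg G B rt N M)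
    (hmax : ∀ (N' : Fin 3 → Set V) (M' : Fin 2 → Set V), Cfg G B rt N' M' →
      (∀ j, M j ⊆ M' j) → ∀ j, M' j ⊆ M j)
    (i : Fin 3) (hrt : (rt i).Nonempty) :
    (∃ P Q, P ∪ Q = N i ∧ Disjoint P Q ∧ Cn G P ∧ Cn G Q ∧ (∃ r ∈ rt i, r ∈ P) ∧
      (∃ r ∈ rt i, r ∈ Q) ∧ ∃ a b, a ≠ b ∧ Tc G P (M a) ∧ Tc G Q (M b)) ∨
    ∃ h ∈ N i, ∀ v ∈ N i, ∀ j, ∀ u ∈ M j, G.Adj v u → v = h := by
  have nomove : ∀ (j j' : Fin 2) (K : Set V), j ≠ j' → K ⊆ N i → Cn G K → Cn G (N i \ K) →
      (∀ r ∈ rt i, r ∉ K) → Tc G K (M j) → Tc G (N i \ K) (M j') → False := by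
    intro j j' K hj hK cK cR hr h1 h2
    have h3 := hmax _ _ (hC.move hj hK cK cR hr h1 h2) (fun b => by
      by_cases h : b = j
      · subst h; rw [Function.update_self]; exact Set.subset_union_left
      · rw [Function.update_of_ne h]) j
    rw [Function.update_self] at h3
    obtain ⟨v, hv⟩ := cK.1
    exact Set.disjoint_left.1 (hC.dNM i j) (hK hv) (h3 (Or.inr hv))
  have other : ∀ j : Fin 2, ∃ j', j ≠ j' := by decide
  have hT : ∀ a, ∃ v ∈ N i, lb G (rt i) M a v := by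
    intro a
    rcases Fin.eq_zero_or_eq_succ a with rfl | ⟨a', rfl⟩
    · obtain ⟨r, hr⟩ := hrt
      exact ⟨r, hC.root i hr, hr⟩
    · obtain ⟨u, hu, v, hv, e⟩ := hC.adj i a'
      exact ⟨u, hu, v, hv, e⟩
  rcases tricho (lb G (rt i) M) (hC.cN i) hT with ⟨h, hh, hub⟩ | ⟨P, Q, hPQ, dPQ, cP, cQ, hP, hQ⟩ |
    ⟨U, hU, cU, dU, aU, lU, nU⟩
  · -- the hub
    right
    refine ⟨h, hh, fun v hv j u hu e => ?_⟩
    by_contra hvh
    obtain ⟨K, h1, h2, h3, h4, h5⟩ := exists_comp (hC.cN i) hh (Cn.singleton v)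
      (Set.singleton_subset_iff.2 ⟨hv, hvh⟩)
    have hvK : v ∈ K := h1 rfl
    have hl : ∀ a, a ≠ j.succ → ∀ w ∈ K, ¬ lb G (rt i) M a w := by
      intro a ha w hw hl
      exact hub K h2 h3 ⟨a, j.succ, ha, ⟨w, hw, hl⟩, ⟨v, hvK, u, hu, e⟩⟩
    obtain ⟨j', hj⟩ := other j
    refine nomove j j' K hj (fun w hw => (h2 hw).1) h3 h5 (fun r hr hrK => ?_)
      ⟨v, hvK, u, hu, e⟩ ?_
    · exact hl 0 (Fin.succ_ne_zero j).symm r hrK hr
    · obtain ⟨a, ha, b, hb, e'⟩ := hC.adj i j'
      refine ⟨a, ⟨ha, fun haK => ?_⟩, b, hb, e'⟩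
      exact hl j'.succ (fun h => hj (Fin.succ_injective _ h).symm) a haK ⟨b, hb, e'⟩
  · -- a fat split
    have side : ∀ P Q : Set V, P ∪ Q = N i → Disjoint P Q → Cn G P → Cn G Q →
        Heavy (lb G (rt i) M) P → Heavy (lb G (rt i) M) Q → ∃ r ∈ rt i, r ∈ P := by
      intro P Q hPQ dPQ cP cQ hP hQ
      by_contra hno
      push Not at hno
      obtain ⟨j', hQj⟩ := heavy_touch hQ
      obtain ⟨j, hj⟩ := other j'
      have hQ' : N i \ P = Q := by
        rw [← hPQ, Set.union_sdiff_left]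
        exact dPQ.symm.sdiff_eq_left
      refine nomove j j' P hj.symm (by rw [← hPQ]; exact Set.subset_union_left) cP
        (by rw [hQ']; exact cQ) hno (heavy_noroot hP hno j) (by rw [hQ']; exact hQj)
    left
    refine ⟨P, Q, hPQ, dPQ, cP, cQ, side P Q hPQ dPQ cP cQ hP hQ,
      side Q P (by rw [Set.union_comm]; exact hPQ) dPQ.symm cQ cP hQ hP, ?_⟩
    obtain ⟨a, ha⟩ := heavy_touch hP
    obtain ⟨b, hab⟩ := other a
    by_cases hb : Tc G Q (M b)
    · exact ⟨a, b, hab, ha, hb⟩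
    · -- `P` touches `M b`
      obtain ⟨u, hu, v, hv, e⟩ := hC.adj i b
      have huP : u ∈ P := by
        rw [← hPQ] at hu
        rcases hu with hu | hu
        · exact hu
        · exact absurd ⟨u, hu, v, hv, e⟩ hb
      obtain ⟨c, hc⟩ := heavy_touch hQ
      have hca : c ≠ b := fun h => hb (h ▸ hc)
      exact ⟨b, c, hca.symm, ⟨u, huP, v, hv, e⟩, hc⟩
  · -- a triangle
    exfalso
    have s1 : U 1 ⊆ N i := fun v hv => (hU v).2 ⟨1, hv⟩
    have hrest : N i \ U 1 = U 0 ∪ U 2 := by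
      ext v
      constructor
      · rintro ⟨h1, h2⟩
        obtain ⟨a, ha⟩ := (hU v).1 h1
        fin_cases a
        · exact Or.inl ha
        · exact absurd ha h2
        · exact Or.inr ha
      · rintro (h | h)
        · exact ⟨(hU v).2 ⟨0, h⟩, fun h' => Set.disjoint_left.1 (dU 0 1 (by decide)) h h'⟩
        · exact ⟨(hU v).2 ⟨2, h⟩, fun h' => Set.disjoint_left.1 (dU 2 1 (by decide)) h h'⟩
    refine nomove 0 1 (U 1) (by decide) s1 (cU 1) ?_ ?_ ?_ ?_
    · rw [hrest]
      exact cn_union (cU 0) (cU 2) (aU 0 2 (by decide))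
    · intro r hr hr1
      exact nU 1 0 (by decide) r hr1 hr
    · obtain ⟨v, hv, u, hu, e⟩ := lU 1
      exact ⟨v, hv, u, hu, e⟩
    · rw [hrest]
      obtain ⟨v, hv, u, hu, e⟩ := lU 2
      exact ⟨v, Or.inr hv, u, hu, e⟩

/-- **[X1] the cross lemma** -/
theorem cross [Finite V] {B : Set V} {N : Fin 3 → Set V} {M : Fin 2 → Set V} {x : Fin 4 → V}
    (cN : ∀ i, Cn G (N i)) (cM : ∀ j, Cn G (M j)) (bN : ∀ i, Disjoint (N i) B)
    (bM : ∀ j, Disjoint (M j) B) (dN : ∀ i i', i ≠ i' → Disjoint (N i) (N i'))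
    (dM : ∀ j j', j ≠ j' → Disjoint (M j) (M j')) (dNM : ∀ i j, Disjoint (N i) (M j))
    (adj : ∀ i j, ∃ u ∈ N i, ∃ v ∈ M j, G.Adj u v)
    (h0 : x 0 ∈ N 0) (h1 : x 1 ∈ N 0) (h2 : x 2 ∈ N 1) (h3 : x 3 ∈ N 2) :
    (∃ P Q, Disjoint P Q ∧ Cn G P ∧ Cn G Q ∧ Disjoint P B ∧ Disjoint Q B ∧ x 0 ∈ P ∧ x 2 ∈ P ∧
      x 1 ∈ Q ∧ x 3 ∈ Q) ∨
    ∃ D S : Set V, S.ncard ≤ 3 ∧ M 0 ⊆ D ∧ M 1 ⊆ D ∧ Disjoint D B ∧ Disjoint S B ∧
      (∀ i, x i ∉ D) ∧ ∀ u ∈ D, ∀ v, G.Adj u v → v ∈ D ∨ v ∈ S ∨ v ∈ B := by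
  classical
  set rt : Fin 3 → Set V := ![{x 0, x 1}, {x 2}, {x 3}] with hrt
  have hC0 : Cfg G B rt N M := by
    refine ⟨cN, cM, bN, bM, dN, dM, dNM, adj, ?_⟩
    intro i r hr
    fin_cases i
    · rcases hr with rfl | rfl
      · exact h0
      · exact h1
    · rcases hr with rfl
      exact h2
    · rcases hr with rfl
      exact h3
  obtain ⟨⟨N', M'⟩, ⟨hC, hM⟩, hmax⟩ := (Set.toFinite
    {p : (Fin 3 → Set V) × (Fin 2 → Set V) | Cfg G B rt p.1 p.2 ∧ ∀ j, M j ⊆ p.2 j}
    ).exists_maximalFor Prod.snd _ ⟨(N, M), hC0, fun _ => subset_rfl⟩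
  have hC : Cfg G B rt N' M' := hC
  have hM : ∀ j, M j ⊆ M' j := hM
  have hmax' : ∀ (N'' : Fin 3 → Set V) (M'' : Fin 2 → Set V), Cfg G B rt N'' M'' →
      (∀ j, M' j ⊆ M'' j) → ∀ j, M'' j ⊆ M' j := by
    intro N'' M'' h hle
    exact @hmax (N'', M'') ⟨h, fun j => (hM j).trans (hle j)⟩ hle
  have hne : ∀ i, (rt i).Nonempty := by
    intro i
    fin_cases i
    · exact ⟨x 0, Or.inl rfl⟩
    · exact ⟨x 2, rfl⟩
    · exact ⟨x 3, rfl⟩
  -- the hubs of `N' 1`, `N' 2`
  have hub1 : ∀ i : Fin 3, i ≠ 0 → ∃ h ∈ N' i, ∀ v ∈ N' i, ∀ j, ∀ u ∈ M' j, G.Adj v u → v = h := by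
    intro i hi
    rcases hC.hub hmax' i (hne i) with ⟨P, Q, -, dPQ, -, -, ⟨r, hr, hrP⟩, ⟨r', hr', hrQ⟩, -⟩ | h
    · exfalso
      have : r = r' := by
        fin_cases i
        · exact absurd rfl hi
        · exact (Set.mem_singleton_iff.1 hr).trans (Set.mem_singleton_iff.1 hr').symm
        · exact (Set.mem_singleton_iff.1 hr).trans (Set.mem_singleton_iff.1 hr').symm
      subst this
      exact Set.disjoint_left.1 dPQ hrP hrQ
    · exact h
  rcases hC.hub hmax' 0 (hne 0) with ⟨P, Q, hPQ, dPQ, cP, cQ, ⟨r, hr, hrP⟩, ⟨r', hr', hrQ⟩,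
    a, b, hab, hPa, hQb⟩ | ⟨g0, hg0, hub0⟩
  · -- the cross
    left
    have mk : ∀ (P Q : Set V) (a b : Fin 2), P ⊆ N' 0 → Q ⊆ N' 0 → Disjoint P Q → Cn G P →
        Cn G Q → x 0 ∈ P → x 1 ∈ Q → a ≠ b → Tc G P (M' a) → Tc G Q (M' b) →
        ∃ P Q, Disjoint P Q ∧ Cn G P ∧ Cn G Q ∧ Disjoint P B ∧ Disjoint Q B ∧ x 0 ∈ P ∧
          x 2 ∈ P ∧ x 1 ∈ Q ∧ x 3 ∈ Q := by
      intro P Q a b sP sQ dPQ cP cQ h0P h1Q hab hPa hQb
      have r2 : x 2 ∈ N' 1 := hC.root 1 rfl
      have r3 : x 3 ∈ N' 2 := hC.root 2 rfl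
      refine ⟨P ∪ M' a ∪ N' 1, Q ∪ M' b ∪ N' 2, ?_, ?_, ?_, ?_, ?_, Or.inl (Or.inl h0P),
        Or.inr r2, Or.inl (Or.inl h1Q), Or.inr r3⟩
      · have e1 := (hC.dNM 0 b).mono_left sP
        have e2 := (hC.dN 0 2 (by decide)).mono_left sP
        have e3 := ((hC.dNM 0 a).mono_left sQ).symm
        have e4 := hC.dM a b hab
        have e5 := (hC.dNM 2 a).symm
        have e6 := (hC.dN 1 0 (by decide)).mono_right sQ
        have e7 := hC.dNM 1 b
        have e8 := hC.dN 1 2 (by decide)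
        simp only [Set.disjoint_union_left, Set.disjoint_union_right]
        tauto
      · exact cn_union (cn_union cP (hC.cM a) hPa) (hC.cN 1)
          ((hC.adj 1 a).symm.mono Set.subset_union_right subset_rfl)
      · exact cn_union (cn_union cQ (hC.cM b) hQb) (hC.cN 2)
          ((hC.adj 2 b).symm.mono Set.subset_union_right subset_rfl)
      · simp only [Set.disjoint_union_left]
        exact ⟨⟨(hC.bN 0).mono_left sP, hC.bM a⟩, hC.bN 1⟩
      · simp only [Set.disjoint_union_left]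
        exact ⟨⟨(hC.bN 0).mono_left sQ, hC.bM b⟩, hC.bN 2⟩
    have sP : P ⊆ N' 0 := by rw [← hPQ]; exact Set.subset_union_left
    have sQ : Q ⊆ N' 0 := by rw [← hPQ]; exact Set.subset_union_right
    have hdj := Set.disjoint_left.1 dPQ
    rcases hr with rfl | rfl <;> rcases hr' with h' | h'
    · exact absurd (h' ▸ hrQ) (hdj hrP)
    · exact mk P Q a b sP sQ dPQ cP cQ hrP (h' ▸ hrQ) hab hPa hQb
    · exact mk Q P b a sQ sP dPQ.symm cQ cP (h' ▸ hrQ) hrP hab.symm hQb hPa
    · have h'' : r' = x 1 := h'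
      exact absurd (h'' ▸ hrQ) (hdj hrP)
  · -- the cut
    right
    obtain ⟨g1, hg1, hb1⟩ := hub1 1 (by decide)
    obtain ⟨g2, hg2, hb2⟩ := hub1 2 (by decide)
    refine ⟨M' 0 ∪ M' 1, {g0, g1, g2}, ?_, (hM 0).trans Set.subset_union_left,
      (hM 1).trans Set.subset_union_right, ?_, ?_, ?_, ?_⟩
    · exact (Set.ncard_insert_le _ _).trans (by
        have := (Set.ncard_insert_le g1 {g2})
        rw [Set.ncard_singleton] at this
        omega)
    · exact Disjoint.union_left (hC.bM 0) (hC.bM 1)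
    · rw [Set.disjoint_left]
      rintro v (rfl | rfl | rfl) hv
      · exact Set.disjoint_left.1 (hC.bN 0) hg0 hv
      · exact Set.disjoint_left.1 (hC.bN 1) hg1 hv
      · exact Set.disjoint_left.1 (hC.bN 2) hg2 hv
    · have hx : ∀ i r, r ∈ rt i → r ∉ M' 0 ∪ M' 1 := by
        intro i r hr h
        rcases h with h | h
        · exact Set.disjoint_left.1 (hC.dNM i 0) (hC.root i hr) h
        · exact Set.disjoint_left.1 (hC.dNM i 1) (hC.root i hr) h
      intro i
      fin_cases i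
      · exact hx 0 _ (Or.inl rfl)
      · exact hx 0 _ (Or.inr rfl)
      · exact hx 1 _ rfl
      · exact hx 2 _ rfl
    · have key : ∀ j, ∀ u ∈ M' j, ∀ v, G.Adj u v → v ∈ M' 0 ∪ M' 1 ∨ v ∈ ({g0, g1, g2} : Set V) ∨
          v ∈ B := by
        intro j u hu v e
        by_contra hno
        push Not at hno
        obtain ⟨n1, n2, n3⟩ := hno
        have m0 : ∀ j, v ∉ M' j := by
          intro j hj
          fin_cases j
          · exact n1 (Or.inl hj)
          · exact n1 (Or.inr hj)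
        have m1 : ∀ i, v ∉ N' i := by
          intro i hi
          fin_cases i
          · exact n2 (Or.inl (hub0 v hi j u hu e.symm))
          · exact n2 (Or.inr (Or.inl (hb1 v hi j u hu e.symm)))
          · exact n2 (Or.inr (Or.inr (hb2 v hi j u hu e.symm)))
        have h4 := hmax' _ _ (hC.grow (j := j) n3 m1 m0 ⟨u, hu, v, rfl, e⟩) (fun b => by
          by_cases h : b = j
          · subst h; rw [Function.update_self]; exact Set.subset_union_left
          · rw [Function.update_of_ne h]) j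
        rw [Function.update_self] at h4
        exact m0 j (h4 (Or.inr rfl))
      rintro u (hu | hu) v e
      · exact key 0 u hu v e
      · exact key 1 u hu v e

end Vale.Agent.P235.XC.H231
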