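import Vale.Agent.P235.XC.Defs
import Vale.Agent.P235.XC.H231.Cross

/-!
# P235, line XC, row [X1]: `CrossStmt`
-/

set_option autoImplicit false

namespace Vale.Agent.P235.XC.H231

open Vale.Agent.P235.K5.H707 Vale.Agent.P235.XC
open Vale.Agent.P235.K5.W.H531 (Con Tch)
open Vale.Agent.P235.H830 (nbr)

/-- **[X1]** -/
theorem crossStmt : CrossStmt := by
  intro V _ G B x N M h
  rcases cross (x := x) (fun i => cn_iff.2 (h.cN i)) (fun j => cn_iff.2 (h.cM j)) h.bN h.bM h.dN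
    (fun j j' hj => by
      fin_cases j <;> fin_cases j'
      · exact absurd rfl hj
      · exact h.dM
      · exact h.dM.symm
      · exact absurd rfl hj) h.dNM (fun i j => h.t i j) h.x0 h.x1 h.x2 h.x3 with
    ⟨P, Q, d, cP, cQ, bP, bQ, h0, h2, h1, h3⟩ | ⟨D, S, hS, m0, m1, dB, sB, hx, hn⟩
  · exact Or.inl ⟨P, Q, cn_iff.1 cP, cn_iff.1 cQ, d, bP, bQ, h0, h2, h1, h3⟩
  · refine Or.inr ⟨S, D, hS, Set.union_subset m0 m1, dB, sB, hx, ?_⟩
    rintro v ⟨hv, u, hu, e⟩
    rcases hn u hu v e with h | h | h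
    · exact absurd h hv
    · exact Or.inl h
    · exact Or.inr h

end Vale.Agent.P235.XC.H231
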